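import Vale.Agent.P305GL.Basic

/-!
# The block STEP
-/

namespace Vale.Agent.P305SP

open Vale.Agent.P305 Vale.Agent.P305E Vale.Agent.P305C Vale.Agent.P305LC Vale.Agent.P305N
  Vale.Agent.P305GH Vale.Agent.P305GL Finset

variable {β : Type} [Rep β] {E : Env β} {x : Pm} {s : S} {g : Gs} {a k : ℕ}

/-- The slot `a` gets its arc `k` to an inner name. -/
theorem core_arc (h : Core x s g (some a) []) (hr : s.res a ≠ 0) (hO : a ∈ g.H.O)
    (hk : g.V.tl k = 0) (hy : k / 3 ∈ g.V.I) (h1 : k % 3 < x.deg (s.vn (k / 3)))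
    (h2 : s.own.get (s.nb x.toPr k) = s.res a)
    (h4 : k / 3 = s.own.get (s.far x.toPr a)) {ns : NT}
    (hn : P305N.Inv x.b x.U (g.V.add k (s.res a)) ns) :
    Core x { s with ns := ns } { g with H := g.H.arc x.F a (k / 3), V := g.V.add k (s.res a) }
      none [] := by
  obtain ⟨-, a2, a3⟩ := h.now a rfl
  have e0 : (g.V.add k (s.res a)).tl k = s.res a := Function.update_self k _ _
  have e1 : ∀ j, j ≠ k → (g.V.add k (s.res a)).tl j = g.V.tl j := fun j hj =>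
    Function.update_of_ne hj _ _
  have e2 : ∀ j, g.V.tl j ≠ 0 → (g.V.add k (s.res a)).tl j = g.V.tl j := fun j hj =>
    e1 j fun e => hj (e ▸ hk)
  refine { h with
    net := hn, gh := h.gh.arc hO a3 a2 (h.lk.I ▸ hy), lk := h.ndO a hO ▸ h.lk.arc h.ok hO hk
    arc := fun j hj => ?_, pend := fun v hv i hi => ?_, now := fun _ e => by cases e
    hall := fun Ps Ys c => h.hall Ps Ys
      ⟨c.sP, c.sI, fun j b1 b2 => e2 j b2 ▸ c.cl j b1 (by rwa [e2 j b2])⟩ }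
  · by_cases e : j = k
    · subst e
      exact ⟨h1, h2.trans e0.symm⟩
    · dsimp only at hj ⊢
      rw [e1 j e] at hj ⊢
      exact h.arc j hj
  · have h0 := h.ne0 (.inr hv)
    rcases h.pend v hv i hi with (c | c | ⟨j, c1, c2⟩) | c | c | c
    · exact .inl (.inl c)
    · exact .inl (.inr (.inl c))
    · exact .inl (.inr (.inr ⟨j, c1, (e2 j (c2 ▸ h0)).trans c2⟩))
    · exact .inr (.inl c)
    · obtain rfl := Option.some.inj c
      have := deg_le3 x.toPr v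
      have b := h.res_cid (i := 1 + i) h0 (by omega)
      have c := (h.own v h0).2.2.1
      rw [← add_assoc] at b
      rw [S.far, b.1, show (s.cid.get v + 1 + i) % 4 - 1 = i by omega] at h4
      exact .inl (.inr (.inr ⟨k, h4, e0.trans b.2⟩))
    · cases c

/-- The program. -/
def stepF (E : Env β) (pr : Pr → Fs β → ℕ → M (Fs β)) (br : Pr → Fs β → ℕ → ℕ → M (Fs β)) (p : Pr)
    (σ : Fs β) (a : ℕ) : M (Fs β × Bool) :=
  if σ.1.res a = 0 then pure (σ, false) else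
  if σ.1.own.get (σ.1.far p a) = 0 then
    if σ.1.mt.get (σ.1.far p a) = σ.1.far p a then pure (σ, false) else
      pr p σ a >>= fun σ' => pure (σ', false)
  else if σ.1.own.get (σ.1.far p a) = σ.1.res a then pure (σ, false) else
  if σ.1.ns.inn.get (σ.1.own.get (σ.1.far p a)) = true then
    num (3 * σ.1.own.get (σ.1.far p a) + p.idx (σ.1.far p a) (σ.1.vn a)) >>= fun k =>
      if σ.1.ns.tl.get k = 0 then
        E.X.arc σ.2.2 (a, k / 3, p.F) >>= fun bx =>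
          pure (({ σ.1 with ns := E.N.add σ.1.ns k (σ.1.res a) }, σ.2.1, bx), false)
      else pure (σ, false)
  else br p σ (σ.1.vn a) (σ.1.far p a) >>= fun σ' => pure (σ', true)

theorem impl_stepF {pr : Pr → Fs β → ℕ → M (Fs β)} {br : Pr → Fs β → ℕ → ℕ → M (Fs β)}
    (hp : PairOK E pr) (hb : BridgeOK E br) :
    Impl fun p : Pr × Fs β × ℕ => stepF E pr br p.1 p.2.1 p.2.2 := by
  unfold stepF
  refine Impl.ite (by fun_prop) (by fun_prop) (Impl.ite (by fun_prop) (Impl.ite (by fun_prop)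
    (by fun_prop) (Impl.bind hp.impl (by fun_prop))) (Impl.ite (by fun_prop) (by fun_prop)
    (Impl.ite (by fun_prop) (Impl.bind (by fun_prop) (Impl.ite (by fun_prop) (Impl.bind ?_ ?_)
    (by fun_prop))) (Impl.bind ?_ (by fun_prop)))))
  · exact Impl.comp (g := fun p : (Pr × Fs β × ℕ) × ℕ => (p.1.2.1.2.2, p.1.2.2, p.2 / 3, p.1.1.F))
      E.hX.iarc (by fun_prop)
  · have : Pure fun p : ((Pr × Fs β × ℕ) × ℕ) × β =>
        E.N.add p.1.1.2.1.1.ns p.1.2 (p.1.1.2.1.1.res p.1.1.2.2) :=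
      Pure.comp (g := fun p : ((Pr × Fs β × ℕ) × ℕ) × β =>
        (p.1.1.2.1.1.ns, p.1.2, p.1.1.2.1.1.res p.1.1.2.2)) E.hN.iadd (by fun_prop)
    refine Impl.pure (Pure.pair (Pure.pair (S.pmk ?_ ?_ ?_ ?_ ?_ ?_ ?_ ?_ this ?_ ?_) ?_) ?_) <;>
      fun_prop
  · exact Impl.comp (g := fun p : Pr × Fs β × ℕ =>
      (p.1, p.2.1, p.2.1.1.vn p.2.2, p.2.1.1.far p.1 p.2.2)) hb.impl (by fun_prop)

/-- **STEP.** -/
theorem step (hP : PAIR) (hB : BRIDGE) : STEP := by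
  intro β _ E
  obtain ⟨pr, hp⟩ := hP β E
  obtain ⟨br, hb⟩ := hB β E
  refine ⟨stepF E pr br, impl_stepF hp hb, fun x σ g φ a o h hc => ?_⟩
  have cl : (σ.1.res a ≠ 0 → Done x σ.1 g (σ.1.vn a) (a % 4 - 1)) → Vt x.b x.B (pure (σ, false))
      fun (r : Fs β × Bool) t => ∃ g' φ', g'.H.G.scn = g.H.G.scn ∧
        if r.2 = true then Good E x r.1 g' (some a) φ' ∧ t + x.Γ + φ' ≤ φ
        else Good E x r.1 g' none φ' ∧ t + φ' ≤ φ + 3 * x.La * x.Γ := fun hd =>
    Vt.pure ⟨g, φ, rfl, ⟨h.core.clear hd, h.lev, h.box⟩, by omega⟩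
  unfold stepF
  refine Vt.ite (fun e => cl fun e' => absurd e e') fun hr => ?_
  obtain ⟨a1, a2, a3, a4, a5, a6⟩ := h.core.slot o (h.core.now a rfl).1 hr
  refine Vt.ite (fun e => Vt.ite (fun e' => cl fun _ => .inr (.inl ⟨e, e'⟩)) fun e' => ?_)
    fun h0 => Vt.ite (fun e => cl fun _ => .inl (e.trans a3.symm)) fun ne => Vt.ite (fun hi => ?_)
      fun hi => ?_
  · refine (hp.spec x σ g φ a o h hr e e').bind ?_
    rintro σ' t ⟨g', φ', b1, b2, b3⟩
    exact Vt.pure ⟨g', φ', b2, b1, b3⟩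
  · rw [h.core.net.inn] at hi
    have i3 := idx_lt3 x.toPr (σ.1.far x.toPr a) (σ.1.vn a)
    have l1 := h.core.ok.ltI _ hi
    have a7 := o.adj.gr.symm a6
    have l2 := o.pow_le
    refine Vt.num_bind (by omega) ?_
    generalize hk : 3 * σ.1.own.get (σ.1.far x.toPr a) + x.idx (σ.1.far x.toPr a) (σ.1.vn a) = k
    have k1 : k / 3 = σ.1.own.get (σ.1.far x.toPr a) := by omega
    have k2 : k % 3 = x.idx (σ.1.far x.toPr a) (σ.1.vn a) := by omega
    have k3 : σ.1.vn (k / 3) = σ.1.far x.toPr a := k1 ▸ h.core.vn_inn hi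
    have k4 : σ.1.nb x.toPr k = σ.1.vn a := by
      rw [S.nb, k3, k2, o.nbr_idx a7]
    rw [h.core.net.tl]
    refine Vt.ite (fun e => ?_) fun e => cl fun _ =>
      .inr (.inr ⟨k, k1, (h.core.arc k e).2.symm.trans (congrArg _ k4)⟩)
    obtain ⟨φb, c1, c2⟩ := h.box
    have hy : k / 3 ∈ g.V.I := k1 ▸ hi
    have hy' : k / 3 ∈ g.H.I := h.core.lk.I ▸ hy
    refine (E.hX.arc _ _ _ _ _ _ (a, k / 3, x.F) c1 (by have := h.core.size_lt o; omega)
      (h.core.gh.OV a1) (h.core.gh.IV hy')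
      (fun e => disjoint_left.1 h.core.gh.dIO hy' ((show a = k / 3 from e) ▸ a1)) o.Fb).bind ?_
    rintro bx t ⟨φ', d1, d2⟩
    refine Vt.pure ⟨{ g with H := g.H.arc x.F a (k / 3), V := g.V.add k (σ.1.res a) }, _, rfl,
      ⟨core_arc h.core hr a1 e hy (by
      rw [k3, k2]; exact o.idx_lt a7) (k4 ▸ a3) k1
      (E.hN.add _ _ _ _ _ _ h.core.net e hy a2), h.lev, φ', d1, rfl⟩, ?_⟩
    have := o.gX
    have := o.big
    have : x.Γ ≤ 3 * x.La * x.Γ := Nat.le_mul_of_pos_left _ (by unfold Pm.La; positivity)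
    show t + 0 + (φ' + x.La * σ.1.psi x + x.Cf * P305FL.pot x.b σ.2.1.get + x.La * x.U * (x.c - σ.1.cm)) ≤ _
    omega
  · rw [h.core.net.inn] at hi
    refine (hb.spec x σ g _ φ _ _ o h (a3 ▸ a2) ((h.core.own _ h0).2.1.resolve_left hi)
      (fun e => ne (e.symm.trans a3)) a6 hc).bind ?_
    rintro σ' t ⟨g', φ', b1, b2, b3⟩
    exact Vt.pure ⟨g', φ', b2, b1, b3⟩

end Vale.Agent.P305SP
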